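import Vale.Agent.P259.DiscExists
import Vale.Agent.P259.Existence
import Vale.Agent.P259.Main

open Vale.Agent.P259 in
theorem Vale.Agent.Results.P259.HomotopyHypothesis.result :
    Nonempty Coherator ∧ ∀ K : Coherator, Vale.Agent.P259.HomotopyHypothesis K :=
  ⟨exists_coherator, fun K =>
    homotopyHypothesis_of_discs K (exists_discFunctor K) fun D S => D.contractible S⟩
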